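import Vale.Agent.P211.Defs

namespace Vale.Agent.P211.Final

open scoped Manifold ContDiff
open Bundle VectorField Vale.Agent.P211.St

noncomputable section

variable {E : Type*} [NormedAddCommGroup E] [NormedSpace ℝ E]
  {M : Type*} [TopologicalSpace M] [ChartedSpace E M] [Mfd E M] [Metric E M]

/-- The value of the field `om` of alternating forms on the frame `F` at `p`. -/
def val (om : (p : M) → TangentSpace 𝓘(ℝ, E) p [⋀^Fin 4]→ₗ[ℝ] ℝ) (F : Fin 4 → Fld E M)
  (p : M) : ℝ := om p fun i => F i p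

/-- `om` is an orientation (a smooth unit volume form): it is smooth, and equal to `1` or `-1` on
every orthonormal frame. -/
def IsOrientation (om : (p : M) → TangentSpace 𝓘(ℝ, E) p [⋀^Fin 4]→ₗ[ℝ] ℝ) : Prop :=
  (∀ F : Fin 4 → Fld E M, (∀ i, Smooth (F i)) → ContMDiff 𝓘(ℝ, E) 𝓘(ℝ) ∞ (val om F)) ∧
    ∀ p F, Ortho F p → val om F p = 1 ∨ val om F p = -1

variable (cov : Conn E M)

/-- The sectional curvature of every tangent plane is nonnegative. -/
def SecNonneg : Prop :=
  ∀ (p : M) (X Y : Fld E M), Smooth X → Smooth Y → 0 ≤ Riem cov X Y Y X p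

/-- The entry `(i, j)` of the block of the curvature operator on the self-dual two-forms, in the
basis `F₀ ∧ Fᵢ + Fₖ ∧ Fₗ` (`i, k, l` cyclic) defined by the orthonormal frame `F`; self-dual means
self-dual for the orientation defined by `F`. -/
def SD (F : Fin 4 → Fld E M) (i j : Fin 3) (p : M) : ℝ :=
  (Riem cov (F 0) (F i.succ) (F j.succ) (F 0) p +
    Riem cov (F 0) (F i.succ) (F (j + 2).succ) (F (j + 1).succ) p +
    Riem cov (F (i + 1).succ) (F (i + 2).succ) (F j.succ) (F 0) p +
    Riem cov (F (i + 1).succ) (F (i + 2).succ) (F (j + 2).succ) (F (j + 1).succ) p) / 2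

/-- `W₊ = 0` for the orientation `s * om` (`s = 1` or `s = -1`): the self-dual block of the
curvature operator is `(lam / 3) Id` at every point. -/
def HalfFlat (lam : ℝ) (om : (p : M) → TangentSpace 𝓘(ℝ, E) p [⋀^Fin 4]→ₗ[ℝ] ℝ) (s : ℝ) : Prop :=
  ∀ p F, Ortho F p → val om F p = s → ∀ i j, SD cov F i j p = if i = j then lam / 3 else 0

/-- `g` is locally symmetric and at every point its curvature tensor is the one of the product of
two round two-spheres of curvature `lam`. -/
def LocallyS2S2 (lam : ℝ) : Prop :=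
  (∀ (p : M) (U X Y Z W : Fld E M), Smooth U → Smooth X → Smooth Y → Smooth Z → Smooth W →
    dRiem cov U X Y Z W p = 0) ∧
  ∀ p : M, ∃ F, Ortho F p ∧ ∀ X Y Z W : Fld E M, Smooth X → Smooth Y → Smooth Z → Smooth W →
    Riem cov X Y Z W p = lam * (dot X Y (F 0) (F 1) p * dot W Z (F 0) (F 1) p +
      dot X Y (F 2) (F 3) p * dot W Z (F 2) (F 3) p)

end

end Vale.Agent.P211.Final
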