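import Vale.Agent.P211.Final.Defs

open scoped Manifold ContDiff
open Bundle Vale.Agent.P211.St Vale.Agent.P211.Final

/-- The target: closed connected oriented Einstein four-manifolds with `lam > 0` and `K ≥ 0`. -/
def Vale.Agent.P211.Final.Target : Prop :=
  ∀ {E : Type} [NormedAddCommGroup E] [NormedSpace ℝ E] [FiniteDimensional ℝ E],
    Module.finrank ℝ E = 4 →
    ∀ {M : Type} [TopologicalSpace M] [T2Space M] [ChartedSpace E M] [Mfd E M] [CompactSpace M]
      [ConnectedSpace M] [Metric E M]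
      [IsContMDiffRiemannianBundle 𝓘(ℝ, E) ∞ E fun p : M => TangentSpace 𝓘(ℝ, E) p]
      (cov : Conn E M), IsLeviCivita cov →
    ∀ lam : ℝ, 0 < lam → IsEinstein cov lam → SecNonneg cov →
    ∀ om : (p : M) → TangentSpace 𝓘(ℝ, E) p [⋀^Fin 4]→ₗ[ℝ] ℝ, IsOrientation om →
      HalfFlat cov lam om 1 ∨ HalfFlat cov lam om (-1) ∨ LocallyS2S2 cov lam
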